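import Vale.Agent.P209.H710.Nec.Defs
import Mathlib.Analysis.SpecialFunctions.Trigonometric.Deriv

/-!
# Row D2 of NEC: the sum of the generating functions is negative on a large subspace
-/

namespace Vale.Agent.P209.H949.NecD2

open Vale.Agent.P209.H710.Nec Set

noncomputable section

universe u

variable {V : Type u} [NormedAddCommGroup V] [InnerProductSpace ℂ V]

/-! ## The real part of the inner product -/

theorem om_swap (u v : V) : om u v = -om v u := by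
  rw [om_apply, om_apply, ← inner_conj_symm u v, Complex.conj_im]

theorem om_addL (u u' v : V) : om (u + u') v = om u v + om u' v := by
  rw [om_apply, om_apply, om_apply, inner_add_left, Complex.add_im]

theorem om_smulL (c : ℝ) (u v : V) : om (c • u) v = c * om u v := by
  rw [om_swap, map_smul, smul_eq_mul, om_swap u v]; ring

theorem om_subL (u u' v : V) : om (u - u') v = om u v - om u' v := by
  rw [om_swap, map_sub, om_swap u v, om_swap u' v]; ring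

theorem om_zeroL (v : V) : om (0 : V) v = 0 := by
  rw [om_swap, map_zero, neg_zero]

/-- `Re ⟪u, v⟫`. -/
def rr (u v : V) : ℝ := (inner ℂ u v : ℂ).re

theorem rr_self (u : V) : rr u u = ‖u‖ ^ 2 := by
  unfold rr
  rw [inner_self_eq_norm_sq_to_K]
  norm_cast

theorem rr_comm (u v : V) : rr u v = rr v u := by
  unfold rr
  rw [← inner_conj_symm u v, Complex.conj_re]

theorem om_self (u : V) : om u u = 0 := by
  have := om_swap u u; linarith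

theorem om_I (u v : V) : om u (Complex.I • v) = rr u v := by
  rw [om_apply, inner_smul_right, Complex.I_mul_im]; rfl

theorem om_I_left (u v : V) : om (Complex.I • u) v = -rr u v := by
  rw [om_swap, om_I, rr_comm]

theorem norm_add_sq' (u v : V) : ‖u + v‖ ^ 2 = ‖u‖ ^ 2 + 2 * rr u v + ‖v‖ ^ 2 := by
  have := norm_add_sq (𝕜 := ℂ) u v
  exact this

theorem norm_sub_sq' (u v : V) : ‖u - v‖ ^ 2 = ‖u‖ ^ 2 - 2 * rr u v + ‖v‖ ^ 2 := by
  have := norm_sub_sq (𝕜 := ℂ) u v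
  exact this

theorem norm_I_smul (u : V) : ‖Complex.I • u‖ = ‖u‖ := by
  rw [norm_smul, Complex.norm_I, one_mul]

/-! ## One half -/

section Half

variable {N : ℕ}

/-- The `P`-components. -/
def hP (w p q : V) (Q : Fin (N + 1) → V) : Fin (N + 2) → V :=
  Fin.snoc (fun k : Fin (N + 1) => Complex.I • Q k - if k = Fin.last N then (q - w) else 0)
    (p - w - Q (Fin.last N))

/-- The `Q`-components. -/
def hQ (w q : V) (Q : Fin (N + 1) → V) : Fin (N + 2) → V := Fin.snoc Q (q - w)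

theorem hP_castSucc (w p q : V) (Q : Fin (N + 1) → V) (k : Fin (N + 1)) :
    hP w p q Q k.castSucc = Complex.I • Q k - if k = Fin.last N then (q - w) else 0 := by
  unfold hP
  rw [Fin.snoc_castSucc]

theorem hP_last (w p q : V) (Q : Fin (N + 1) → V) :
    hP w p q Q (Fin.last _) = p - w - Q (Fin.last N) := by
  unfold hP
  rw [Fin.snoc_last]

omit [InnerProductSpace ℂ V] in
theorem hQ_castSucc (w q : V) (Q : Fin (N + 1) → V) (k : Fin (N + 1)) :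
    hQ w q Q k.castSucc = Q k := by
  unfold hQ
  rw [Fin.snoc_castSucc]

omit [InnerProductSpace ℂ V] in
theorem hQ_last (w q : V) (Q : Fin (N + 1) → V) : hQ w q Q (Fin.last _) = q - w := by
  unfold hQ
  rw [Fin.snoc_last]

theorem half_om (w p q : V) (Q : Fin (N + 1) → V) :
    2 * ∑ k, om (hP w p q Q k) (hQ w q Q k) =
      -2 * ∑ k, ‖Q k‖ ^ 2 + 2 * om (p - w) (q - w) := by
  rw [Fin.sum_univ_castSucc, hP_last, hQ_last]
  have h1 : ∀ k : Fin (N + 1), om (hP w p q Q k.castSucc) (hQ w q Q k.castSucc) =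
      -‖Q k‖ ^ 2 - if k = Fin.last N then om (q - w) (Q (Fin.last N)) else 0 := by
    intro k
    rw [hP_castSucc, hQ_castSucc, om_subL, om_I_left, rr_self]
    split_ifs with h
    · rw [h]
    · rw [om_zeroL]
  rw [Finset.sum_congr rfl fun k _ => h1 k, Finset.sum_sub_distrib, Finset.sum_neg_distrib,
    Finset.sum_ite_eq' Finset.univ (Fin.last N) (fun _ => om (q - w) (Q (Fin.last N))),
    if_pos (Finset.mem_univ _), om_subL (p - w), om_swap (Q (Fin.last N)) (q - w)]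
  ring

theorem mid_N (w p q : V) (Q : Fin (N + 1) → V) :
    mid (M := N + 2) (w, hP w p q Q, hQ w q Q) (N + 1) = p := by
  unfold mid
  simp only
  rw [Fin.sum_univ_castSucc, Fin.sum_univ_castSucc (n := N + 1) (f := fun k : Fin (N + 2) =>
    if N + 1 = (k : ℕ) + 1 then hQ w q Q k else 0)]
  have h1 : ∑ k : Fin (N + 1), (if N + 1 ≤ ((k.castSucc : Fin (N + 2)) : ℕ) then
      hP w p q Q k.castSucc else 0) = 0 :=
    Finset.sum_eq_zero fun k _ => if_neg (by simp only [Fin.val_castSucc]; omega)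
  have h2 : ∑ k : Fin (N + 1), (if N + 1 = ((k.castSucc : Fin (N + 2)) : ℕ) + 1 then
      hQ w q Q k.castSucc else 0) = Q (Fin.last N) := by
    rw [Finset.sum_eq_single (Fin.last N)]
    · rw [if_pos (by simp), hQ_castSucc]
    · intro k _ hk
      refine if_neg fun h => hk (Fin.ext ?_)
      simp only [Fin.val_castSucc] at h
      rw [Fin.val_last]; omega
    · intro h; exact absurd (Finset.mem_univ _) h
  rw [h1, h2, if_pos (by simp), if_neg (by simp), hP_last]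
  abel

theorem mid_N1 (w p q : V) (Q : Fin (N + 1) → V) :
    mid (M := N + 2) (w, hP w p q Q, hQ w q Q) (N + 2) = q := by
  unfold mid
  simp only
  have h1 : ∑ k : Fin (N + 2), (if N + 2 ≤ (k : ℕ) then hP w p q Q k else 0) = 0 :=
    Finset.sum_eq_zero fun k _ => if_neg (by omega)
  have h2 : ∑ k : Fin (N + 2), (if N + 2 = (k : ℕ) + 1 then hQ w q Q k else 0) = q - w := by
    rw [Finset.sum_eq_single (Fin.last (N + 1))]
    · rw [if_pos (by simp), hQ_last]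
    · intro k _ hk
      refine if_neg fun h => hk (Fin.ext ?_)
      rw [Fin.val_last]; omega
    · intro h; exact absurd (Finset.mem_univ _) h
  rw [h1, h2]
  abel

/-- The value of the generating function on the half. -/
theorem FF_half (G : V → ℝ) (τ κ : ℝ) (w p q : V) (Q : Fin (N + 1) → V) :
    FF (stp (N + 1) G τ κ) (M := N + 2) (w, hP w p q Q, hQ w q Q) =
      -2 * ∑ k, ‖Q k‖ ^ 2 + (2 * om (p - w) (q - w) - κ * (‖p‖ ^ 2 + ‖q‖ ^ 2)) +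
      ∑ j ∈ Finset.range (N + 1), τ / ((N + 1 : ℕ) : ℝ) *
        G (mid (M := N + 2) (w, hP w p q Q, hQ w q Q) j) := by
  unfold FF
  simp only
  rw [half_om, Finset.sum_range_succ, Finset.sum_range_succ, mid_N, mid_N1]
  have h1 : ∑ j ∈ Finset.range (N + 1), stp (N + 1) G τ κ j
      (mid (M := N + 2) (w, hP w p q Q, hQ w q Q) j) =
      ∑ j ∈ Finset.range (N + 1), τ / ((N + 1 : ℕ) : ℝ) *
        G (mid (M := N + 2) (w, hP w p q Q, hQ w q Q) j) := by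
    refine Finset.sum_congr rfl fun j hj => ?_
    unfold stp
    rw [if_pos (Finset.mem_range.1 hj)]
  rw [h1]
  unfold stp
  rw [if_neg (by omega), if_neg (by omega)]
  ring

/-- The two-variable form, diagonalised. -/
theorem form_eq {κ : ℝ} (hκ : κ ≠ 0) (w m δ : V) :
    2 * om (m - Complex.I • ((1 / (2 * κ) : ℝ) • δ) - (1 / 2 : ℝ) • δ - w)
        (m - Complex.I • ((1 / (2 * κ) : ℝ) • δ) + (1 / 2 : ℝ) • δ - w) -
      κ * (‖m - Complex.I • ((1 / (2 * κ) : ℝ) • δ) - (1 / 2 : ℝ) • δ‖ ^ 2 +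
        ‖m - Complex.I • ((1 / (2 * κ) : ℝ) • δ) + (1 / 2 : ℝ) • δ‖ ^ 2) =
      -2 * κ * ‖m‖ ^ 2 + (1 - κ ^ 2) / (2 * κ) * ‖δ‖ ^ 2 + 2 * om δ w := by
  set c : ℝ := 1 / (2 * κ) with hc
  have hκc : κ * c = 1 / 2 := by rw [hc]; field_simp
  set m' : V := m - Complex.I • (c • δ) with hm'
  have h1 : om (m' - (1 / 2 : ℝ) • δ - w) (m' + (1 / 2 : ℝ) • δ - w) = om m' δ + om δ w := by
    simp only [om_subL, map_sub, map_add, om_smulL, map_smul, smul_eq_mul, om_self]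
    rw [om_swap w m', om_swap w δ, om_swap δ m']
    ring
  have h2 : ‖m' - (1 / 2 : ℝ) • δ‖ ^ 2 + ‖m' + (1 / 2 : ℝ) • δ‖ ^ 2 =
      2 * ‖m'‖ ^ 2 + 1 / 2 * ‖δ‖ ^ 2 := by
    rw [norm_sub_sq', norm_add_sq', norm_smul]
    norm_num
    ring
  have h3 : om m' δ = om m δ + c * ‖δ‖ ^ 2 := by
    rw [hm', om_subL, om_I_left]
    have : rr (c • δ) δ = c * ‖δ‖ ^ 2 := by
      rw [← rr_self, ← neg_neg (rr (c • δ) δ), ← om_I_left]
      have e : Complex.I • c • δ = c • (Complex.I • δ) := smul_comm _ _ _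
      rw [e, om_smulL, om_I_left]; ring
    rw [this]; ring
  have h4 : ‖m'‖ ^ 2 = ‖m‖ ^ 2 + 2 * c * om m δ + c ^ 2 * ‖δ‖ ^ 2 := by
    rw [hm', norm_sub_sq', norm_I_smul, norm_smul, mul_pow, Real.norm_eq_abs, sq_abs]
    have : rr m (Complex.I • c • δ) = -(c * om m δ) := by
      rw [rr_comm, ← neg_neg (rr (Complex.I • c • δ) m), ← om_I_left]
      have e : Complex.I • Complex.I • c • δ = (-c) • δ := by
        rw [smul_smul, Complex.I_mul_I, neg_smul, one_smul, neg_smul]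
      rw [e, om_smulL, om_swap δ m]; ring
    rw [this]; ring
  rw [h1, h2, h3, h4]
  have h5 : (1 - κ ^ 2) / (2 * κ) = c - κ / 2 := by rw [hc]; field_simp
  rw [h5]
  have h6 : κ * c ^ 2 = c / 2 := by rw [pow_two, ← mul_assoc, hκc]; ring
  have h7 : κ * (2 * (‖m‖ ^ 2 + 2 * c * om m δ + c ^ 2 * ‖δ‖ ^ 2) + 1 / 2 * ‖δ‖ ^ 2) =
      2 * κ * ‖m‖ ^ 2 + 4 * (κ * c) * om m δ + 2 * (κ * c ^ 2) * ‖δ‖ ^ 2 +
        κ / 2 * ‖δ‖ ^ 2 := by ring
  rw [h7, hκc, h6]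
  ring

end Half

/-! ## The parametrisation of the subspace -/

section Par

variable (V) in
/-- The parameters on which the form is negative definite. -/
abbrev PN (N : ℕ) : Type _ := (Fin (N + 1) → V) × (Fin (N + 1) → V) × V × V × V

/-- `mid` as a linear map. -/
def midLin (M j : ℕ) : W V M →ₗ[ℝ] V where
  toFun x := mid x j
  map_add' x y := by
    simp only [mid, Prod.fst_add, Prod.snd_add, Pi.add_apply, ite_add_zero,
      Finset.sum_add_distrib]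
    abel
  map_smul' c x := by
    simp only [mid, Prod.smul_fst, Prod.smul_snd, Pi.smul_apply, smul_add, Finset.smul_sum,
      smul_ite, smul_zero, RingHom.id_apply]

theorem midLin_apply (M j : ℕ) (x : W V M) : midLin M j x = mid x j := rfl

/-- The half as a linear map. -/
def hlf (N : ℕ) : V × V × V × (Fin (N + 1) → V) →ₗ[ℝ] (Fin (N + 2) → V) × (Fin (N + 2) → V) where
  toFun y := (hP y.1 y.2.1 y.2.2.1 y.2.2.2, hQ y.1 y.2.2.1 y.2.2.2)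
  map_add' x y := by
    refine Prod.ext (funext fun k => ?_) (funext fun k => ?_)
    · refine Fin.lastCases ?_ (fun k => ?_) k
      · simp only [Prod.fst_add, Prod.snd_add, Pi.add_apply, hP_last]
        abel
      · simp only [Prod.fst_add, Prod.snd_add, Pi.add_apply, hP_castSucc, smul_add]
        split_ifs
        · abel
        · abel
    · refine Fin.lastCases ?_ (fun k => ?_) k
      · simp only [Prod.fst_add, Prod.snd_add, Pi.add_apply, hQ_last]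
        abel
      · simp only [Prod.fst_add, Prod.snd_add, Pi.add_apply, hQ_castSucc]
  map_smul' c x := by
    refine Prod.ext (funext fun k => ?_) (funext fun k => ?_)
    · refine Fin.lastCases ?_ (fun k => ?_) k
      · simp only [Prod.smul_fst, Prod.smul_snd, Pi.smul_apply, hP_last, smul_sub,
          RingHom.id_apply]
      · simp only [Prod.smul_fst, Prod.smul_snd, Pi.smul_apply, hP_castSucc, smul_sub,
          RingHom.id_apply, smul_ite, smul_zero, smul_comm c Complex.I]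
    · refine Fin.lastCases ?_ (fun k => ?_) k
      · simp only [Prod.smul_fst, Prod.smul_snd, Pi.smul_apply, hQ_last, smul_sub,
          RingHom.id_apply]
      · simp only [Prod.smul_fst, Prod.smul_snd, Pi.smul_apply, hQ_castSucc,
          RingHom.id_apply]

variable {N : ℕ}

/-- Multiplication by `i`. -/
def Jl : V →ₗ[ℝ] V where
  toFun v := Complex.I • v
  map_add' _ _ := smul_add _ _ _
  map_smul' _ _ := smul_comm _ _ _

/-- `σ`. -/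
def Ls : PN V N × V →ₗ[ℝ] V where
  toFun x := x.1.2.2.2.2
  map_add' _ _ := rfl
  map_smul' _ _ := rfl

/-- `m`. -/
def Lm : PN V N × V →ₗ[ℝ] V where
  toFun x := x.1.2.2.1
  map_add' _ _ := rfl
  map_smul' _ _ := rfl

/-- `m'`. -/
def Lm' : PN V N × V →ₗ[ℝ] V where
  toFun x := x.1.2.2.2.1
  map_add' _ _ := rfl
  map_smul' _ _ := rfl

/-- `ρ`. -/
def Lr : PN V N × V →ₗ[ℝ] V where
  toFun x := x.2
  map_add' _ _ := rfl
  map_smul' _ _ := rfl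

/-- `Q`. -/
def LQ : PN V N × V →ₗ[ℝ] (Fin (N + 1) → V) where
  toFun x := x.1.1
  map_add' _ _ := rfl
  map_smul' _ _ := rfl

/-- `Q'`. -/
def LQ' : PN V N × V →ₗ[ℝ] (Fin (N + 1) → V) where
  toFun x := x.1.2.1
  map_add' _ _ := rfl
  map_smul' _ _ := rfl

/-- `δ`. -/
def Ld : PN V N × V →ₗ[ℝ] V := (1 / 2 : ℝ) • (Ls + Lr)

/-- `δ'`. -/
def Ld' : PN V N × V →ₗ[ℝ] V := (1 / 2 : ℝ) • (Ls - Lr)

/-- `w`. -/
def Lw (T : ℝ) : PN V N × V →ₗ[ℝ] V := -(Jl.comp Ls) - Jl.comp ((T / 2) • Lr)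

/-- `p`. -/
def Lp (κ : ℝ) : PN V N × V →ₗ[ℝ] V :=
  Lm - Jl.comp ((1 / (2 * κ) : ℝ) • Ld) - (1 / 2 : ℝ) • Ld

/-- `q`. -/
def Lq (κ : ℝ) : PN V N × V →ₗ[ℝ] V :=
  Lm - Jl.comp ((1 / (2 * κ) : ℝ) • Ld) + (1 / 2 : ℝ) • Ld

/-- `p'`. -/
def Lp' (κ : ℝ) : PN V N × V →ₗ[ℝ] V :=
  Lm' - Jl.comp ((1 / (2 * κ) : ℝ) • Ld') - (1 / 2 : ℝ) • Ld'

/-- `q'`. -/
def Lq' (κ : ℝ) : PN V N × V →ₗ[ℝ] V :=
  Lm' - Jl.comp ((1 / (2 * κ) : ℝ) • Ld') + (1 / 2 : ℝ) • Ld'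

/-- The first half. -/
def io₁ (κ T : ℝ) : PN V N × V →ₗ[ℝ] W V (N + 2) :=
  (Lw T).prod ((hlf N).comp ((Lw T).prod ((Lp κ).prod ((Lq κ).prod LQ))))

/-- The second half. -/
def io₂ (κ T : ℝ) : PN V N × V →ₗ[ℝ] W V (N + 2) :=
  (Lw T).prod ((hlf N).comp ((Lw T).prod ((Lp' κ).prod ((Lq' κ).prod LQ'))))

/-- The parametrisation. -/
def io (κ κ' T : ℝ) : PN V N × V →ₗ[ℝ] WS V (N + 2) :=
  (Lw T).prod (((hlf N).comp ((Lw T).prod ((Lp κ).prod ((Lq κ).prod LQ)))).prod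
    ((hlf N).comp ((Lw T).prod ((Lp' κ').prod ((Lq' κ').prod LQ')))))

theorem prt₁_io (κ κ' T : ℝ) (x : PN V N × V) : prt₁ (io κ κ' T x) = io₁ κ T x := rfl

theorem prt₂_io (κ κ' T : ℝ) (x : PN V N × V) : prt₂ (io κ κ' T x) = io₂ κ' T x := rfl

/-- The size of the definite part. -/
def sz (y : PN V N) : ℝ :=
  ∑ k, ‖y.1 k‖ ^ 2 + ∑ k, ‖y.2.1 k‖ ^ 2 + ‖y.2.2.1‖ ^ 2 + ‖y.2.2.2.1‖ ^ 2 + ‖y.2.2.2.2‖ ^ 2

omit [InnerProductSpace ℂ V] in
theorem sz_nonneg (y : PN V N) : 0 ≤ sz y := by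
  unfold sz; positivity

omit [InnerProductSpace ℂ V] in
theorem norm_le_sz (y : PN V N) : ‖y‖ ^ 2 ≤ sz y := by
  have h0 := sz_nonneg y
  have hQ : ∀ k, ‖y.1 k‖ ^ 2 ≤ sz y := fun k => by
    have := Finset.single_le_sum (f := fun k => ‖y.1 k‖ ^ 2) (fun i _ => by positivity)
      (Finset.mem_univ k)
    have h2 : 0 ≤ ∑ k, ‖y.2.1 k‖ ^ 2 + ‖y.2.2.1‖ ^ 2 + ‖y.2.2.2.1‖ ^ 2 + ‖y.2.2.2.2‖ ^ 2 := by
      positivity
    unfold sz
    linarith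
  have hQ' : ∀ k, ‖y.2.1 k‖ ^ 2 ≤ sz y := fun k => by
    have := Finset.single_le_sum (f := fun k => ‖y.2.1 k‖ ^ 2) (fun i _ => by positivity)
      (Finset.mem_univ k)
    have h2 : 0 ≤ ∑ k, ‖y.1 k‖ ^ 2 + ‖y.2.2.1‖ ^ 2 + ‖y.2.2.2.1‖ ^ 2 + ‖y.2.2.2.2‖ ^ 2 := by
      positivity
    unfold sz
    linarith
  have h3 : 0 ≤ ∑ k, ‖y.1 k‖ ^ 2 := by positivity
  have h4 : 0 ≤ ∑ k, ‖y.2.1 k‖ ^ 2 := by positivity
  have hm : ‖y.2.2.1‖ ^ 2 ≤ sz y := by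
    unfold sz
    nlinarith [sq_nonneg ‖y.2.2.2.1‖, sq_nonneg ‖y.2.2.2.2‖]
  have hm' : ‖y.2.2.2.1‖ ^ 2 ≤ sz y := by
    unfold sz
    nlinarith [sq_nonneg ‖y.2.2.1‖, sq_nonneg ‖y.2.2.2.2‖]
  have hs : ‖y.2.2.2.2‖ ^ 2 ≤ sz y := by
    unfold sz
    nlinarith [sq_nonneg ‖y.2.2.1‖, sq_nonneg ‖y.2.2.2.1‖]
  have key : ‖y‖ ≤ Real.sqrt (sz y) := by
    rw [Prod.norm_def, Prod.norm_def, Prod.norm_def, Prod.norm_def]
    refine max_le ?_ (max_le ?_ (max_le ?_ (max_le ?_ ?_)))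
    · exact (pi_norm_le_iff_of_nonneg (Real.sqrt_nonneg _)).2 fun k =>
        Real.le_sqrt_of_sq_le (hQ k)
    · exact (pi_norm_le_iff_of_nonneg (Real.sqrt_nonneg _)).2 fun k =>
        Real.le_sqrt_of_sq_le (hQ' k)
    · exact Real.le_sqrt_of_sq_le hm
    · exact Real.le_sqrt_of_sq_le hm'
    · exact Real.le_sqrt_of_sq_le hs
  calc ‖y‖ ^ 2 ≤ Real.sqrt (sz y) ^ 2 := pow_le_pow_left₀ (norm_nonneg _) key 2
    _ = sz y := Real.sq_sqrt h0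

/-- The value of the sum of the quadratic parts. -/
theorem quad_eq {κ : ℝ} (hκ : 0 < κ) (x : PN V N × V) :
    (2 * om (Lp κ x - Lw ((1 - κ ^ 2) / (2 * κ)) x) (Lq κ x - Lw ((1 - κ ^ 2) / (2 * κ)) x) -
      κ * (‖Lp κ x‖ ^ 2 + ‖Lq κ x‖ ^ 2)) +
    (2 * om (Lp' κ⁻¹ x - Lw ((1 - κ ^ 2) / (2 * κ)) x)
        (Lq' κ⁻¹ x - Lw ((1 - κ ^ 2) / (2 * κ)) x) -
      κ⁻¹ * (‖Lp' κ⁻¹ x‖ ^ 2 + ‖Lq' κ⁻¹ x‖ ^ 2)) =
      -2 * κ * ‖Lm x‖ ^ 2 - 2 * κ⁻¹ * ‖Lm' x‖ ^ 2 - 2 * ‖Ls x‖ ^ 2 := by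
  set T : ℝ := (1 - κ ^ 2) / (2 * κ) with hT
  have e1 := form_eq hκ.ne' (Lw T x) (Lm x) (Ld x)
  have e2 := form_eq (inv_pos.2 hκ).ne' (Lw T x) (Lm' x) (Ld' x)
  have hT' : (1 - κ⁻¹ ^ 2) / (2 * κ⁻¹) = -T := by
    rw [hT]
    have := hκ.ne'
    field_simp
    ring
  rw [hT'] at e2
  rw [← hT] at e1
  have hp : Lp κ x = Lm x - Complex.I • ((1 / (2 * κ) : ℝ) • Ld x) - (1 / 2 : ℝ) • Ld x := rfl
  have hq : Lq κ x = Lm x - Complex.I • ((1 / (2 * κ) : ℝ) • Ld x) + (1 / 2 : ℝ) • Ld x := rfl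
  have hp' : Lp' κ⁻¹ x = Lm' x - Complex.I • ((1 / (2 * κ⁻¹) : ℝ) • Ld' x) -
    (1 / 2 : ℝ) • Ld' x := rfl
  have hq' : Lq' κ⁻¹ x = Lm' x - Complex.I • ((1 / (2 * κ⁻¹) : ℝ) • Ld' x) +
    (1 / 2 : ℝ) • Ld' x := rfl
  rw [hp, hq, hp', hq', e1, e2]
  have hd : Ld x = (1 / 2 : ℝ) • (Ls x + Lr x) := rfl
  have hd' : Ld' x = (1 / 2 : ℝ) • (Ls x - Lr x) := rfl
  have hw : Lw T x = -(Complex.I • Ls x) - Complex.I • ((T / 2) • Lr x) := rfl
  have h1 : ‖Ld x‖ ^ 2 = 1 / 4 * (‖Ls x‖ ^ 2 + 2 * rr (Ls x) (Lr x) + ‖Lr x‖ ^ 2) := by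
    rw [hd, norm_smul, mul_pow, norm_add_sq']
    norm_num
  have h2 : ‖Ld' x‖ ^ 2 = 1 / 4 * (‖Ls x‖ ^ 2 - 2 * rr (Ls x) (Lr x) + ‖Lr x‖ ^ 2) := by
    rw [hd', norm_smul, mul_pow, norm_sub_sq']
    norm_num
  have h3 : om (Ld x) (Lw T x) + om (Ld' x) (Lw T x) =
      -‖Ls x‖ ^ 2 - T / 2 * rr (Ls x) (Lr x) := by
    rw [← om_addL]
    have h4 : Ld x + Ld' x = Ls x := by rw [hd, hd']; module
    have h5 : Complex.I • ((T / 2) • Lr x) = (T / 2) • (Complex.I • Lr x) := smul_comm _ _ _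
    have h6 : om (Ls x) ((T / 2) • (Complex.I • Lr x)) =
        (T / 2) * om (Ls x) (Complex.I • Lr x) := by
      rw [(om (Ls x)).map_smul (T / 2), smul_eq_mul]
    rw [h4, hw, h5, map_sub, map_neg, h6, om_I, om_I, rr_self]
  have h6 : 2 * om (Ld x) (Lw T x) = 2 * (-‖Ls x‖ ^ 2 - T / 2 * rr (Ls x) (Lr x)) -
      2 * om (Ld' x) (Lw T x) := by linarith
  rw [h1, h2, h6]
  ring

/-- `l` of the midpoints is controlled by the definite part. -/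
theorem exists_bound [FiniteDimensional ℂ V] (l : V →L[ℂ] ℂ)
    (φ : PN V N × V →ₗ[ℝ] W V (N + 2)) (j : ℕ)
    (h0 : ∀ ρ : V, l ρ = 0 → l (mid (φ (0, ρ)) j) = 0) :
    ∃ K : ℝ, 0 ≤ K ∧ ∀ x : PN V N × V, l x.2 = 0 → ‖l (mid (φ x) j)‖ ^ 2 ≤ K * sz x.1 := by
  have : FiniteDimensional ℝ V := FiniteDimensional.complexToReal V
  let g : PN V N →ₗ[ℝ] ℂ := ((l : V →ₗ[ℂ] ℂ).restrictScalars ℝ).comp
    ((midLin (N + 2) j).comp (φ.comp (LinearMap.inl ℝ (PN V N) V)))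
  let gc : PN V N →L[ℝ] ℂ := LinearMap.toContinuousLinearMap g
  refine ⟨‖gc‖ ^ 2, sq_nonneg _, fun x hx => ?_⟩
  have h1 : x = (x.1, 0) + (0, x.2) := by simp
  have h2 : l (mid (φ x) j) = gc x.1 := by
    have e1 : mid (φ x) j = mid (φ (x.1, 0)) j + mid (φ (0, x.2)) j := by
      rw [← midLin_apply, ← midLin_apply, ← midLin_apply, ← map_add, ← map_add, ← h1]
    rw [e1, map_add, h0 _ hx, add_zero]
    rfl
  rw [h2]
  calc ‖gc x.1‖ ^ 2 ≤ (‖gc‖ * ‖x.1‖) ^ 2 :=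
        pow_le_pow_left₀ (norm_nonneg _) (gc.le_opNorm _) 2
    _ = ‖gc‖ ^ 2 * ‖x.1‖ ^ 2 := mul_pow _ _ _
    _ ≤ ‖gc‖ ^ 2 * sz x.1 := mul_le_mul_of_nonneg_left (norm_le_sz x.1) (sq_nonneg _)

theorem l_mid_zero {M : ℕ} (l : V →L[ℂ] ℂ) (x : W V M) (j : ℕ) (hw : l x.1 = 0)
    (hP : ∀ k, l (x.2.1 k) = 0) (hQ : ∀ k, l (x.2.2 k) = 0) : l (mid x j) = 0 := by
  unfold mid
  rw [map_add, map_add, hw, map_sum, map_sum, zero_add]
  rw [Finset.sum_eq_zero, Finset.sum_eq_zero, add_zero]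
  · intro k _
    split_ifs
    · exact hQ k
    · exact map_zero _
  · intro k _
    split_ifs
    · exact hP k
    · exact map_zero _

theorem l_real_smul (l : V →L[ℂ] ℂ) (c : ℝ) (v : V) (h : l v = 0) : l (c • v) = 0 := by
  rw [← Complex.coe_smul, map_smul, h, smul_zero]

theorem l_half_zero (l : V →L[ℂ] ℂ) (w p q : V) (Q : Fin (N + 1) → V) (hw : l w = 0)
    (hp : l p = 0) (hq : l q = 0) (hQ' : ∀ k, l (Q k) = 0) (j : ℕ) :
    l (mid (M := N + 2) (w, hP w p q Q, hQ w q Q) j) = 0 := by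
  refine l_mid_zero l _ j hw (fun k => ?_) (fun k => ?_)
  · refine Fin.lastCases ?_ (fun k => ?_) k
    · simp only [hP_last, map_sub, hw, hp, hQ', sub_zero]
    · simp only [hP_castSucc, map_sub, map_smul, hQ', smul_zero]
      split_ifs
      · rw [map_sub, hw, hq]; simp
      · rw [map_zero]; simp
  · refine Fin.lastCases ?_ (fun k => ?_) k
    · simp only [hQ_last, map_sub, hw, hq, sub_zero]
    · simp only [hQ_castSucc, hQ']

theorem io₁_zero (l : V →L[ℂ] ℂ) (κ T : ℝ) (j : ℕ) (ρ : V) (h : l ρ = 0) :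
    l (mid (io₁ (N := N) κ T (0, ρ)) j) = 0 := by
  have hs : Ls (N := N) ((0, ρ) : PN V N × V) = 0 := rfl
  have hd : Ld (N := N) ((0, ρ) : PN V N × V) = (1 / 2 : ℝ) • ((0 : V) + ρ) := rfl
  have hld : l (Ld (N := N) ((0, ρ) : PN V N × V)) = 0 := by
    rw [hd, zero_add]; exact l_real_smul l _ _ h
  refine l_half_zero l _ _ _ _ ?_ ?_ ?_ (fun k => map_zero l) j
  · change l (-(Complex.I • (0 : V)) - Complex.I • ((T / 2) • ρ)) = 0
    rw [smul_zero, neg_zero, zero_sub, map_neg, map_smul, l_real_smul l _ _ h, smul_zero, neg_zero]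
  · change l ((0 : V) - Complex.I • ((1 / (2 * κ) : ℝ) • Ld (N := N) ((0, ρ) : PN V N × V)) -
      (1 / 2 : ℝ) • Ld (N := N) ((0, ρ) : PN V N × V)) = 0
    rw [map_sub, map_sub, map_zero, map_smul, l_real_smul l _ _ hld, l_real_smul l _ _ hld,
      smul_zero, sub_zero, sub_zero]
  · change l ((0 : V) - Complex.I • ((1 / (2 * κ) : ℝ) • Ld (N := N) ((0, ρ) : PN V N × V)) +
      (1 / 2 : ℝ) • Ld (N := N) ((0, ρ) : PN V N × V)) = 0
    rw [map_add, map_sub, map_zero, map_smul, l_real_smul l _ _ hld, l_real_smul l _ _ hld,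
      smul_zero, sub_zero, add_zero]

theorem io₂_zero (l : V →L[ℂ] ℂ) (κ T : ℝ) (j : ℕ) (ρ : V) (h : l ρ = 0) :
    l (mid (io₂ (N := N) κ T (0, ρ)) j) = 0 := by
  have hd : Ld' (N := N) ((0, ρ) : PN V N × V) = (1 / 2 : ℝ) • ((0 : V) - ρ) := rfl
  have hld : l (Ld' (N := N) ((0, ρ) : PN V N × V)) = 0 := by
    rw [hd, zero_sub]; exact l_real_smul l _ _ (by rw [map_neg, h, neg_zero])
  refine l_half_zero l _ _ _ _ ?_ ?_ ?_ (fun k => map_zero l) j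
  · change l (-(Complex.I • (0 : V)) - Complex.I • ((T / 2) • ρ)) = 0
    rw [smul_zero, neg_zero, zero_sub, map_neg, map_smul, l_real_smul l _ _ h, smul_zero, neg_zero]
  · change l ((0 : V) - Complex.I • ((1 / (2 * κ) : ℝ) • Ld' (N := N) ((0, ρ) : PN V N × V)) -
      (1 / 2 : ℝ) • Ld' (N := N) ((0, ρ) : PN V N × V)) = 0
    rw [map_sub, map_sub, map_zero, map_smul, l_real_smul l _ _ hld, l_real_smul l _ _ hld,
      smul_zero, sub_zero, sub_zero]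
  · change l ((0 : V) - Complex.I • ((1 / (2 * κ) : ℝ) • Ld' (N := N) ((0, ρ) : PN V N × V)) +
      (1 / 2 : ℝ) • Ld' (N := N) ((0, ρ) : PN V N × V)) = 0
    rw [map_add, map_sub, map_zero, map_smul, l_real_smul l _ _ hld, l_real_smul l _ _ hld,
      smul_zero, sub_zero, add_zero]

/-- The part of the value that comes from the Hamiltonian. -/
theorem G_part [FiniteDimensional ℂ V] (l : V →L[ℂ] ℂ) (G : V → ℝ)
    (hG : ∃ C : ℝ, ∀ z, G z ≤ C * ‖l z‖ ^ 2) (φ : PN V N × V →ₗ[ℝ] W V (N + 2))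
    (h0 : ∀ j, ∀ ρ : V, l ρ = 0 → l (mid (φ (0, ρ)) j) = 0) :
    ∃ K : ℝ, 0 ≤ K ∧ ∀ τ : ℝ, 0 ≤ τ → ∀ x : PN V N × V, l x.2 = 0 →
      ∑ j ∈ Finset.range (N + 1), τ / ((N + 1 : ℕ) : ℝ) * G (mid (φ x) j) ≤ τ * K * sz x.1 := by
  obtain ⟨C, hC⟩ := hG
  choose K hK0 hK using fun j => exists_bound l φ j (h0 j)
  refine ⟨∑ j ∈ Finset.range (N + 1), |C| * K j,
    Finset.sum_nonneg fun j _ => mul_nonneg (abs_nonneg _) (hK0 j), fun τ hτ x hx => ?_⟩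
  rw [mul_assoc, Finset.sum_mul, Finset.mul_sum]
  refine Finset.sum_le_sum fun j _ => ?_
  have h1 : G (mid (φ x) j) ≤ |C| * K j * sz x.1 := by
    calc G (mid (φ x) j) ≤ C * ‖l (mid (φ x) j)‖ ^ 2 := hC _
      _ ≤ |C| * ‖l (mid (φ x) j)‖ ^ 2 := mul_le_mul_of_nonneg_right (le_abs_self C) (sq_nonneg _)
      _ ≤ |C| * (K j * sz x.1) := mul_le_mul_of_nonneg_left (hK j x hx) (abs_nonneg _)
      _ = |C| * K j * sz x.1 := by ring
  have h2 : 0 ≤ |C| * K j * sz x.1 :=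
    mul_nonneg (mul_nonneg (abs_nonneg _) (hK0 j)) (sz_nonneg _)
  have h3 : τ / ((N + 1 : ℕ) : ℝ) ≤ τ := by
    refine div_le_self hτ ?_
    exact_mod_cast Nat.succ_le_succ (Nat.zero_le N)
  calc τ / ((N + 1 : ℕ) : ℝ) * G (mid (φ x) j)
      ≤ τ / ((N + 1 : ℕ) : ℝ) * (|C| * K j * sz x.1) :=
        mul_le_mul_of_nonneg_left h1 (by positivity)
    _ ≤ τ * (|C| * K j * sz x.1) := mul_le_mul_of_nonneg_right h3 h2

end Par

/-- The real dimension of the kernel of a non-zero functional. -/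
theorem finrank_ker [FiniteDimensional ℂ V] (l : V →L[ℂ] ℂ) (hl : l ≠ 0) :
    Module.finrank ℝ (LinearMap.ker ((l : V →ₗ[ℂ] ℂ).restrictScalars ℝ)) + 2 =
      Module.finrank ℝ V := by
  have : FiniteDimensional ℝ V := FiniteDimensional.complexToReal V
  have h := LinearMap.finrank_range_add_finrank_ker ((l : V →ₗ[ℂ] ℂ).restrictScalars ℝ)
  have hr : LinearMap.range ((l : V →ₗ[ℂ] ℂ).restrictScalars ℝ) = ⊤ := by
    rw [LinearMap.range_eq_top]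
    intro c
    have : ∃ v, l v ≠ 0 := by
      by_contra hcon
      push Not at hcon
      exact hl (ContinuousLinearMap.ext hcon)
    obtain ⟨v, hv⟩ := this
    refine ⟨(c / l v) • v, ?_⟩
    change l ((c / l v) • v) = c
    rw [map_smul, smul_eq_mul, div_mul_cancel₀ _ hv]
  rw [hr, finrank_top, Complex.finrank_real_complex] at h
  omega

theorem Lq_sub_Lp {N : ℕ} (κ : ℝ) (x : PN V N × V) (hy : x.1 = 0) :
    Lq κ x - Lp κ x = (1 / 2 : ℝ) • x.2 := by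
  have e4 : Lq κ x - Lp κ x = Ld x := by
    have hp : Lp κ x = Lm x - Complex.I • ((1 / (2 * κ) : ℝ) • Ld x) -
      (1 / 2 : ℝ) • Ld x := rfl
    have hq : Lq κ x = Lm x - Complex.I • ((1 / (2 * κ) : ℝ) • Ld x) +
      (1 / 2 : ℝ) • Ld x := rfl
    rw [hp, hq]; module
  have e5 : Ld x = (1 / 2 : ℝ) • (x.1.2.2.2.2 + x.2) := rfl
  rw [e4, e5, hy]
  simp

theorem pos_of_ne {N : ℕ} (κ : ℝ) (x : PN V N × V) (hy : x.1 = 0) (hx0 : x ≠ 0) :
    0 < ‖Lp κ x‖ ^ 2 + ‖Lq κ x‖ ^ 2 := by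
  have hρ : x.2 ≠ 0 := fun h => hx0 (Prod.ext hy h)
  have hpq := Lq_sub_Lp κ x hy
  by_contra hcon
  have h0 : ‖Lp κ x‖ ^ 2 + ‖Lq κ x‖ ^ 2 = 0 := le_antisymm (not_lt.1 hcon) (by positivity)
  obtain ⟨h1, h2⟩ := (add_eq_zero_iff_of_nonneg (sq_nonneg _) (sq_nonneg _)).1 h0
  rw [sq_eq_zero_iff, norm_eq_zero] at h1 h2
  rw [h1, h2, sub_zero] at hpq
  exact hρ ((smul_eq_zero.1 hpq.symm).resolve_left (by norm_num))

theorem sz_bound {N : ℕ} {κ c₀ : ℝ} (i3 : c₀ ≤ 2) (i4 : c₀ ≤ 2 * κ) (i5 : c₀ ≤ 2 * κ⁻¹)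
    (x : PN V N × V) :
    c₀ * sz x.1 ≤ 2 * ∑ k, ‖LQ x k‖ ^ 2 + 2 * ∑ k, ‖LQ' x k‖ ^ 2 + 2 * κ * ‖Lm x‖ ^ 2 +
      2 * κ⁻¹ * ‖Lm' x‖ ^ 2 + 2 * ‖Ls x‖ ^ 2 := by
  have hsz : sz x.1 = ∑ k, ‖LQ x k‖ ^ 2 + ∑ k, ‖LQ' x k‖ ^ 2 + ‖Lm x‖ ^ 2 + ‖Lm' x‖ ^ 2 +
    ‖Ls x‖ ^ 2 := rfl
  have i1 : 0 ≤ ∑ k, ‖LQ x k‖ ^ 2 := by positivity
  have i2 : 0 ≤ ∑ k, ‖LQ' x k‖ ^ 2 := by positivity
  rw [hsz]
  have j1 := mul_le_mul_of_nonneg_right i3 i1
  have j2 := mul_le_mul_of_nonneg_right i3 i2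
  have j3 := mul_le_mul_of_nonneg_right i4 (sq_nonneg ‖Lm x‖)
  have j4 := mul_le_mul_of_nonneg_right i5 (sq_nonneg ‖Lm' x‖)
  have j5 := mul_le_mul_of_nonneg_right i3 (sq_nonneg ‖Ls x‖)
  linarith

/-- Pure arithmetic. -/
theorem arith {q1 q2 o1 o2 a1 a2 κ κ' κA κB g1 g2 m m' sg c₀ t K₁ K₂ z : ℝ}
    (e3 : (o1 - κ * a1) + (o2 - κ' * a2) = -2 * κ * m - 2 * κ' * m' - 2 * sg)
    (h1 : g1 ≤ t * K₁ * z) (h2 : g2 ≤ t * K₂ * z)
    (h3 : c₀ * z ≤ 2 * q1 + 2 * q2 + 2 * κ * m + 2 * κ' * m' + 2 * sg) :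
    (-2 * q1 + (o1 - κA * a1) + g1) + (-2 * q2 + (o2 - κB * a2) + g2) ≤
      -(c₀ - t * (K₁ + K₂)) * z - (κA - κ) * a1 - (κB - κ') * a2 := by
  linarith

/-- Negativity on the image of the parametrisation. -/
theorem neg_io {N : ℕ} (l : V →L[ℂ] ℂ) (GA GB : V → ℝ) {κ κA κB τ₀ K₁ K₂ c₀ : ℝ}
    (hκ0 : 0 < κ) (hgA : κ < κA) (hgB : κ⁻¹ < κB) (hτ0 : 0 < τ₀)
    (i3 : c₀ ≤ 2) (i4 : c₀ ≤ 2 * κ) (i5 : c₀ ≤ 2 * κ⁻¹) (hτK : τ₀ * (K₁ + K₂) < c₀)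
    (hK₁ : ∀ τ : ℝ, 0 ≤ τ → ∀ x : PN V N × V, l x.2 = 0 →
      ∑ j ∈ Finset.range (N + 1), τ / ((N + 1 : ℕ) : ℝ) *
        GA (mid (io₁ κ ((1 - κ ^ 2) / (2 * κ)) x) j) ≤ τ * K₁ * sz x.1)
    (hK₂ : ∀ τ : ℝ, 0 ≤ τ → ∀ x : PN V N × V, l x.2 = 0 →
      ∑ j ∈ Finset.range (N + 1), τ / ((N + 1 : ℕ) : ℝ) *
        GB (mid (io₂ κ⁻¹ ((1 - κ ^ 2) / (2 * κ)) x) j) ≤ τ * K₂ * sz x.1)
    (x : PN V N × V) (hx : l x.2 = 0) (hx0 : x ≠ 0) :
    FF (stp (N + 1) GA τ₀ κA) (prt₁ (io κ κ⁻¹ ((1 - κ ^ 2) / (2 * κ)) x)) +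
      FF (stp (N + 1) GB τ₀ κB) (prt₂ (io κ κ⁻¹ ((1 - κ ^ 2) / (2 * κ)) x)) < 0 := by
  rw [prt₁_io, prt₂_io]
  have g1 := hK₁ τ₀ hτ0.le x hx
  have g2 := hK₂ τ₀ hτ0.le x hx
  have e3 := quad_eq hκ0 x
  set T : ℝ := (1 - κ ^ 2) / (2 * κ) with hT
  have e1 : FF (stp (N + 1) GA τ₀ κA) (io₁ κ T x) =
      -2 * ∑ k, ‖LQ x k‖ ^ 2 + (2 * om (Lp κ x - Lw T x) (Lq κ x - Lw T x) -
        κA * (‖Lp κ x‖ ^ 2 + ‖Lq κ x‖ ^ 2)) +
      ∑ j ∈ Finset.range (N + 1), τ₀ / ((N + 1 : ℕ) : ℝ) * GA (mid (io₁ κ T x) j) :=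
    FF_half GA τ₀ κA (Lw T x) (Lp κ x) (Lq κ x) (LQ x)
  have e2 : FF (stp (N + 1) GB τ₀ κB) (io₂ κ⁻¹ T x) =
      -2 * ∑ k, ‖LQ' x k‖ ^ 2 + (2 * om (Lp' κ⁻¹ x - Lw T x) (Lq' κ⁻¹ x - Lw T x) -
        κB * (‖Lp' κ⁻¹ x‖ ^ 2 + ‖Lq' κ⁻¹ x‖ ^ 2)) +
      ∑ j ∈ Finset.range (N + 1), τ₀ / ((N + 1 : ℕ) : ℝ) * GB (mid (io₂ κ⁻¹ T x) j) :=
    FF_half GB τ₀ κB (Lw T x) (Lp' κ⁻¹ x) (Lq' κ⁻¹ x) (LQ' x)
  have hsz0 := sz_nonneg x.1
  have hA : 0 ≤ (κA - κ) * (‖Lp κ x‖ ^ 2 + ‖Lq κ x‖ ^ 2) :=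
    mul_nonneg (sub_nonneg.2 hgA.le) (by positivity)
  have hB : 0 ≤ (κB - κ⁻¹) * (‖Lp' κ⁻¹ x‖ ^ 2 + ‖Lq' κ⁻¹ x‖ ^ 2) :=
    mul_nonneg (sub_nonneg.2 hgB.le) (by positivity)
  rw [e1, e2]
  refine lt_of_le_of_lt (arith e3 g1 g2 (sz_bound i3 i4 i5 x)) ?_
  have hc : 0 < c₀ - τ₀ * (K₁ + K₂) := sub_pos.2 hτK
  generalize hz : sz x.1 = z at hsz0
  generalize hc' : c₀ - τ₀ * (K₁ + K₂) = c at hc
  generalize hb : (κB - κ⁻¹) * (‖Lp' κ⁻¹ x‖ ^ 2 + ‖Lq' κ⁻¹ x‖ ^ 2) = b at hB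
  by_cases hy : x.1 = 0
  · have : 0 < (κA - κ) * (‖Lp κ x‖ ^ 2 + ‖Lq κ x‖ ^ 2) :=
      mul_pos (sub_pos.2 hgA) (pos_of_ne κ x hy hx0)
    generalize (κA - κ) * (‖Lp κ x‖ ^ 2 + ‖Lq κ x‖ ^ 2) = a at this
    have h2 : 0 ≤ c * z := mul_nonneg hc.le hsz0
    linarith
  · have hpos : 0 < z := by
      rw [← hz]
      exact lt_of_lt_of_le (pow_pos (norm_pos_iff.2 hy) 2) (norm_le_sz x.1)
    generalize (κA - κ) * (‖Lp κ x‖ ^ 2 + ‖Lq κ x‖ ^ 2) = a at hA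
    have : 0 < c * z := mul_pos hc hpos
    linarith

/-- The value at zero. -/
theorem FF_zero {N M : ℕ} (G : V → ℝ) (τ κ : ℝ) (hG : G 0 = 0) :
    FF (stp N G τ κ) (0 : W V M) = 0 := by
  unfold FF
  have hm : ∀ j, mid (0 : W V M) j = 0 := fun j => map_zero (midLin M j)
  have hst : ∀ j, stp N G τ κ j 0 = 0 := by
    intro j
    unfold stp
    split_ifs
    · rw [hG, mul_zero]
    · rw [norm_zero]; ring
  simp only [hm, hst, Finset.sum_const_zero, add_zero]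
  simp

/-- Row D2 of NEC. -/
theorem D2 : D2_statement.{u} := by
  intro V _ _ _ l Om₁ Om₂ c₁ c₂ A B a b s N hl ha ha1 hb hb1 hs hab hN
  obtain ⟨N, rfl⟩ : ∃ N', N = N' + 1 := ⟨N - 1, by omega⟩
  have : FiniteDimensional ℝ V := FiniteDimensional.complexToReal V
  have h1s : 0 < 1 + s := by linarith
  set κ : ℝ := Real.tan (Real.pi * a * (1 / (1 + s)) / 2) with hκ
  have hα0 : 0 < Real.pi * a * (1 / (1 + s)) / 2 := by have := Real.pi_pos; positivity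
  have hα1 : Real.pi * a * (1 / (1 + s)) / 2 < Real.pi / 2 := by
    have : a * (1 / (1 + s)) < 1 := by
      rw [mul_one_div, div_lt_one h1s]; linarith
    have := mul_lt_mul_of_pos_left this Real.pi_pos
    linarith
  have hκ0 : 0 < κ := Real.tan_pos_of_pos_of_lt_pi_div_two hα0 hα1
  have hκ' : Real.tan (Real.pi * b * (1 / (1 + s)) / 2) = κ⁻¹ := by
    rw [hκ, ← Real.tan_pi_div_two_sub]
    congr 1
    have : b = 1 + s - a := by linarith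
    rw [this]
    field_simp
  set T : ℝ := (1 - κ ^ 2) / (2 * κ) with hT
  obtain ⟨K₁, hK₁0, hK₁⟩ := G_part (N := N) l A.G A.upper (io₁ κ T) (fun j => io₁_zero l κ T j)
  obtain ⟨K₂, hK₂0, hK₂⟩ := G_part (N := N) l B.G B.upper (io₂ κ⁻¹ T)
    (fun j => io₂_zero l κ⁻¹ T j)
  set c₀ : ℝ := min 2 (min (2 * κ) (2 * κ⁻¹)) with hc₀
  have hc₀0 : 0 < c₀ := lt_min two_pos (lt_min (by positivity) (by positivity))
  set τ₀ : ℝ := min 1 (c₀ / (2 * (K₁ + K₂ + 1))) with hτ₀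
  have hK : 0 < K₁ + K₂ + 1 := by linarith
  have hτ0 : 0 < τ₀ := lt_min one_pos (by positivity)
  have hτ1 : τ₀ ≤ 1 := min_le_left _ _
  have hτK : τ₀ * (K₁ + K₂) < c₀ := by
    have h1 : τ₀ ≤ c₀ / (2 * (K₁ + K₂ + 1)) := min_le_right _ _
    have h2 : τ₀ * (2 * (K₁ + K₂ + 1)) ≤ c₀ := (le_div_iff₀ (by positivity)).1 h1
    nlinarith
  -- growth of the rotation coefficients
  have hgrow : ∀ a : ℝ, 0 < a → a < 1 → Real.tan (Real.pi * a * (1 / (1 + s)) / 2) <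
      Real.tan (Real.pi * a * ((1 + τ₀ * s) / (1 + s)) / 2) := by
    intro a ha ha1
    have h1 : 1 / (1 + s) < (1 + τ₀ * s) / (1 + s) := by
      rw [div_lt_div_iff_of_pos_right h1s]
      nlinarith [mul_pos hτ0 hs]
    have h2 : (1 + τ₀ * s) / (1 + s) ≤ 1 := by
      rw [div_le_one h1s]
      nlinarith
    have h0 : 0 < 1 / (1 + s) := by positivity
    have hpa : 0 < Real.pi * a := mul_pos Real.pi_pos ha
    refine Real.tan_lt_tan_of_lt_of_lt_pi_div_two ?_ ?_ ?_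
    · have : 0 < Real.pi * a * (1 / (1 + s)) / 2 := by positivity
      linarith [Real.pi_pos]
    · have h3 : Real.pi * a * ((1 + τ₀ * s) / (1 + s)) ≤ Real.pi * a :=
        mul_le_of_le_one_right hpa.le h2
      have h4 : Real.pi * a < Real.pi := by nlinarith [Real.pi_pos]
      linarith
    · have := mul_lt_mul_of_pos_left h1 hpa
      linarith
  have hgA := hgrow a ha ha1
  have hgB := hgrow b hb hb1
  rw [← hκ] at hgA
  rw [hκ'] at hgB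
  set κA : ℝ := Real.tan (Real.pi * a * ((1 + τ₀ * s) / (1 + s)) / 2) with hκA
  set κB : ℝ := Real.tan (Real.pi * b * ((1 + τ₀ * s) / (1 + s)) / 2) with hκB
  -- the subspace
  let Kl : Submodule ℝ V := LinearMap.ker ((l : V →ₗ[ℂ] ℂ).restrictScalars ℝ)
  let ψ : PN V N × Kl →ₗ[ℝ] WS V (N + 2) :=
    (io κ κ⁻¹ T).comp (LinearMap.prodMap LinearMap.id Kl.subtype)
  have hψ : ∀ x : PN V N × Kl, x ≠ 0 →
      FF (stp (N + 1) A.G τ₀ κA) (prt₁ (ψ x)) + FF (stp (N + 1) B.G τ₀ κB) (prt₂ (ψ x)) < 0 := by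
    intro x hx
    refine neg_io l A.G B.G hκ0 hgA hgB hτ0 (min_le_left _ _)
      ((min_le_right _ _).trans (min_le_left _ _)) ((min_le_right _ _).trans (min_le_right _ _))
      hτK hK₁ hK₂ (x.1, (x.2 : V)) x.2.2 fun h => hx ?_
    have h1 := congrArg Prod.fst h
    have h2 := congrArg Prod.snd h
    exact Prod.ext h1 (Subtype.ext h2)
  have hinj : Function.Injective ψ := by
    rw [injective_iff_map_eq_zero]
    intro x hx
    by_contra hx0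
    have h1 := hψ x hx0
    rw [hx] at h1
    have e1 : FF (stp (N + 1) A.G τ₀ κA) (prt₁ (0 : WS V (N + 2))) +
        FF (stp (N + 1) B.G τ₀ κB) (prt₂ (0 : WS V (N + 2))) = 0 := by
      have hA0 : A.G 0 = 0 := by
        have := A.G_smul 0 0
        rw [zero_smul] at this
        simpa using this
      have hB0 : B.G 0 = 0 := by
        have := B.G_smul 0 0
        rw [zero_smul] at this
        simpa using this
      have p1 : prt₁ (0 : WS V (N + 2)) = 0 := rfl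
      have p2 : prt₂ (0 : WS V (N + 2)) = 0 := rfl
      rw [p1, p2, FF_zero _ _ _ hA0, FF_zero _ _ _ hB0, add_zero]
    linarith
  refine ⟨τ₀, hτ0, hτ1, LinearMap.range ψ, ?_, ?_⟩
  · rw [LinearMap.finrank_range_of_inj hinj]
    have hk := finrank_ker l hl
    have hk' : Module.finrank ℝ Kl + 2 = Module.finrank ℝ V := hk
    simp only [Module.finrank_prod, Module.finrank_pi_fintype, Finset.sum_const, Finset.card_univ,
      Fintype.card_fin, smul_eq_mul]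
    rw [← hk']
    ring
  · rintro x ⟨y, rfl⟩ hx
    exact hψ y fun h => hx (by rw [h, map_zero])

end

end Vale.Agent.P209.H949.NecD2
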