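import Vale.Agent.P209.H710.Nec.Defs

/-!
# Row G3 of NEC: the Hamiltonian of an embedded ball
-/

namespace Vale.Agent.P209.H949

open scoped ContDiff Topology
open Set Filter Vale.Agent.P209.H710.Nec

noncomputable section

/-! ## The profile -/

/-- The profile: smooth, slope in `(-1, 0)` on `[0, r')`, zero after `r'`. -/
theorem exists_profile {c r : ℝ} (hc : 0 < c) (hcr : c < r) :
    ∃ (h h' : ℝ → ℝ) (r' : ℝ), ContDiff ℝ ∞ h ∧ (∀ u, HasDerivAt h (h' u) u) ∧
      0 < r' ∧ r' < r ∧ c < h 0 ∧ h 0 < r ∧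
      (∀ u, 0 ≤ u → u < r' → -1 < h' u ∧ h' u < 0 ∧ 0 < h u) ∧
      (∀ u, 0 < u → u < r' → h u < h 0) ∧
      (∀ u, r' ≤ u → h' u = 0 ∧ h u = 0) := by
  set r' : ℝ := (c + r) / 2 with hr'
  set δ : ℝ := (r - c) / 8 with hδ
  have hδ0 : 0 < δ := by rw [hδ]; linarith
  have hcr' : c + 4 * δ = r' := by rw [hr', hδ]; ring
  set lam : ℝ := (c + δ) / (c + 2 * δ) with hlam
  have h2 : 0 < c + 2 * δ := by linarith
  have hlam0 : 0 < lam := div_pos (by linarith) h2
  have hlam1 : lam < 1 := (div_lt_one h2).2 (by linarith)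
  set k : ℝ → ℝ := fun t => lam * Real.smoothTransition ((r' - t) / δ) with hk
  have hkc : ContDiff ℝ ∞ k := by
    refine contDiff_const.mul ?_
    exact Real.smoothTransition.contDiff.comp ((contDiff_const.sub contDiff_id).div_const _)
  have hk0 : ∀ t, 0 ≤ k t := fun t => mul_nonneg hlam0.le (Real.smoothTransition.nonneg _)
  have hk1 : ∀ t, k t < 1 := fun t => by
    have := Real.smoothTransition.le_one ((r' - t) / δ)
    calc k t ≤ lam * 1 := mul_le_mul_of_nonneg_left this hlam0.le
      _ < 1 := by rw [mul_one]; exact hlam1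
  have hkpos : ∀ t, t < r' → 0 < k t := fun t ht =>
    mul_pos hlam0 (Real.smoothTransition.pos_of_pos (div_pos (by linarith) hδ0))
  have hkz : ∀ t, r' ≤ t → k t = 0 := fun t ht => by
    simp only [hk]
    rw [Real.smoothTransition.zero_of_nonpos (div_nonpos_of_nonpos_of_nonneg (by linarith) hδ0.le),
      mul_zero]
  have hkl : ∀ t, t ≤ r' - δ → k t = lam := fun t ht => by
    simp only [hk]
    rw [Real.smoothTransition.one_of_one_le ((one_le_div hδ0).2 (by linarith)), mul_one]
  set h : ℝ → ℝ := fun u => ∫ t in u..r', k t with hh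
  have hii : ∀ a b : ℝ, IntervalIntegrable k MeasureTheory.volume a b := fun a b =>
    hkc.continuous.intervalIntegrable a b
  have hd : ∀ u, HasDerivAt h (-k u) u := fun u => by
    have := intervalIntegral.integral_hasDerivAt_left (hii u r')
      (hkc.continuous.stronglyMeasurableAtFilter _ _) hkc.continuous.continuousAt
    exact this
  have hhc : ContDiff ℝ ∞ h := by
    rw [contDiff_infty_iff_deriv]
    refine ⟨fun u => (hd u).differentiableAt, ?_⟩
    have : deriv h = fun u => -k u := funext fun u => (hd u).deriv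
    rw [this]
    exact hkc.neg
  have hanti : ∀ u v, u < v → u < r' → h v < h u := by
    intro u v huv hur
    have : h u - h v = ∫ t in u..v, k t := by
      simp only [hh]
      rw [← intervalIntegral.integral_add_adjacent_intervals (hii u v) (hii v r')]
      ring
    have hpos : 0 < ∫ t in u..v, k t := by
      rcases le_total v r' with hv | hv
      · refine intervalIntegral.intervalIntegral_pos_of_pos_on (hii u v) (fun x hx => ?_) huv
        exact hkpos x (lt_of_lt_of_le hx.2 hv)
      · have h1 : 0 < ∫ t in u..r', k t :=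
          intervalIntegral.intervalIntegral_pos_of_pos_on (hii u r') (fun x hx => hkpos x hx.2) hur
        have h2 : 0 ≤ ∫ t in r'..v, k t :=
          intervalIntegral.integral_nonneg hv fun x _ => hk0 x
        rw [← intervalIntegral.integral_add_adjacent_intervals (hii u r') (hii r' v)]
        linarith
    linarith
  have hhz : ∀ u, r' ≤ u → h u = 0 := by
    intro u hu
    simp only [hh]
    rw [intervalIntegral.integral_symm]
    rw [intervalIntegral.integral_congr (g := fun _ => (0 : ℝ)) (fun t ht => ?_)]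
    · simp
    · rw [uIcc_of_le hu] at ht
      exact hkz t ht.1
  have hr'0 : 0 < r' := by rw [hr']; linarith
  have hr'r : r' < r := by rw [hr']; linarith
  refine ⟨h, fun u => -k u, r', hhc, hd, hr'0, hr'r, ?_, ?_, ?_, ?_, ?_⟩
  · have h1 : ∫ t in (0:ℝ)..(r' - δ), k t = lam * (r' - δ) := by
      rw [intervalIntegral.integral_congr (g := fun _ => lam) (fun t ht => ?_)]
      · rw [intervalIntegral.integral_const, smul_eq_mul]; ring
      · rw [uIcc_of_le (by linarith)] at ht
        exact hkl t ht.2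
    have h2' : 0 ≤ ∫ t in (r' - δ)..r', k t :=
      intervalIntegral.integral_nonneg (by linarith) fun x _ => hk0 x
    have h3 : h 0 = lam * (r' - δ) + ∫ t in (r' - δ)..r', k t := by
      rw [← h1]
      simp only [hh]
      rw [intervalIntegral.integral_add_adjacent_intervals (hii _ _) (hii _ _)]
    have h4 : c < lam * (r' - δ) := by
      have : r' - δ = c + 3 * δ := by linarith
      rw [this, hlam, div_mul_eq_mul_div, lt_div_iff₀ h2]
      nlinarith
    linarith
  · have h1 : h 0 ≤ ∫ t in (0:ℝ)..r', (1 : ℝ) := by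
      simp only [hh]
      exact intervalIntegral.integral_mono_on hr'0.le (hii _ _) intervalIntegrable_const
        fun x _ => (hk1 x).le
    rw [intervalIntegral.integral_const, smul_eq_mul, mul_one] at h1
    linarith
  · intro u hu0 hur
    refine ⟨by linarith [hk1 u], by linarith [hkpos u hur], ?_⟩
    have := hanti u r' hur hur
    rw [hhz r' le_rfl] at this
    exact this
  · intro u hu0 _
    exact hanti 0 u hu0 hr'0
  · intro u hu
    exact ⟨by simp only [hkz u hu, neg_zero], hhz u hu⟩

/-! ## Linear algebra of `omega` -/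

variable {n : ℕ}

theorem omega_nondeg {v : Fin n → ℂ} (h : ∀ w, omega v w = 0) : v = 0 := by
  funext j
  have h1 := h (Pi.single j 1)
  have h2 := h (Pi.single j Complex.I)
  unfold omega at h1 h2
  rw [Finset.sum_eq_single j (fun b _ hb => by simp [Pi.single_eq_of_ne hb])
    (fun h => absurd (Finset.mem_univ j) h)] at h1 h2
  simp only [Pi.single_eq_same, Complex.one_re, Complex.one_im, mul_zero, mul_one, zero_sub,
    neg_eq_zero, Complex.I_re, Complex.I_im, sub_zero] at h1 h2
  exact Complex.ext h2 h1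

/-- A linear map that preserves `omega` is an isomorphism. -/
theorem exists_equiv (L : (Fin n → ℂ) →L[ℝ] (Fin n → ℂ))
    (h : ∀ v w, omega (L v) (L w) = omega v w) :
    ∃ e : (Fin n → ℂ) ≃L[ℝ] (Fin n → ℂ), (e : (Fin n → ℂ) →L[ℝ] (Fin n → ℂ)) = L := by
  have hinj : Function.Injective (L : (Fin n → ℂ) →ₗ[ℝ] (Fin n → ℂ)) := by
    rw [injective_iff_map_eq_zero]
    intro v hv
    refine omega_nondeg fun w => ?_
    rw [← h v w]
    have : L v = 0 := hv
    rw [this]
    simp [omega]
  let e' : (Fin n → ℂ) ≃ₗ[ℝ] (Fin n → ℂ) := LinearEquiv.ofInjectiveEndo _ hinj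
  refine ⟨e'.toContinuousLinearEquiv, ?_⟩
  ext v
  rfl

theorem nsq_hasFDerivAt (x : Fin n → ℂ) : ∃ D : (Fin n → ℂ) →L[ℝ] ℝ,
    HasFDerivAt (nsq (n := n)) D x ∧
    ∀ v, D v = ∑ j, 2 * ((x j).re * (v j).re + (x j).im * (v j).im) := by
  have h1 : ∀ j : Fin n, HasFDerivAt (fun y : Fin n → ℂ => ‖y j‖ ^ 2)
      ((2 : ℝ) • (innerSL ℝ (x j)).comp (ContinuousLinearMap.proj (R := ℝ) j)) x := by
    intro j
    have := (hasStrictFDerivAt_norm_sq (x j)).hasFDerivAt.comp x
      ((ContinuousLinearMap.proj (R := ℝ) (φ := fun _ : Fin n => ℂ) j).hasFDerivAt)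
    refine this.congr_fderiv ?_
    ext v
    simp
    ring
  refine ⟨∑ j, (2 : ℝ) • (innerSL ℝ (x j)).comp (ContinuousLinearMap.proj (R := ℝ) j), ?_, ?_⟩
  · unfold nsq
    exact HasFDerivAt.fun_sum fun j _ => h1 j
  · intro v
    simp only [sum_apply, smul_apply,
      ContinuousLinearMap.comp_apply, ContinuousLinearMap.proj_apply, innerSL_apply_apply,
      smul_eq_mul]
    refine Finset.sum_congr rfl fun j _ => ?_
    rw [Complex.inner]
    simp only [Complex.mul_re, Complex.conj_re, Complex.conj_im]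
    ring

theorem nsq_contDiff : ContDiff ℝ ∞ (nsq (n := n)) := by
  unfold nsq
  exact ContDiff.sum fun j _ => (contDiff_norm_sq ℝ).comp (contDiff_apply ℝ ℂ j)

/-- Row G3 of NEC. -/
theorem G3 : G3_statement := by
  intro n r c f hc hcr hf
  obtain ⟨U, hU, hBU, hfs, hfo, hfω⟩ := hf
  obtain ⟨h, h', r', hhc, hhd, hr'0, hr'r, h0c, h0r, hA, hB, hC⟩ := exists_profile hc hcr
  -- the inverse
  have hinj : InjOn f U := by
    intro x hx y hy hxy
    have := hfo.injective (a₁ := ⟨x, hx⟩) (a₂ := ⟨y, hy⟩) hxy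
    exact congrArg Subtype.val this
  have hfderiv : ∀ x ∈ U, HasFDerivAt f (fderiv ℝ f x) x := fun x hx =>
    ((hfs.differentiableOn (by simp)).differentiableAt (hU.mem_nhds hx)).hasFDerivAt
  let e0 : OpenPartialHomeomorph (Fin n → ℂ) (Fin n → ℂ) :=
    OpenPartialHomeomorph.ofContinuousOpenRestrict (hinj.toPartialEquiv f U)
      hfs.continuousOn hfo.isOpenMap hU
  have he0 : (e0 : (Fin n → ℂ) → (Fin n → ℂ)) = f := rfl
  have hes : e0.source = U := rfl
  have het : e0.target = f '' U := rfl
  set g : (Fin n → ℂ) → (Fin n → ℂ) := fun y => e0.symm y with hg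
  have hgU : ∀ y ∈ f '' U, g y ∈ U := fun y hy => e0.map_target hy
  have hfg : ∀ y ∈ f '' U, f (g y) = y := fun y hy => e0.right_inv hy
  have hgf : ∀ x ∈ U, g (f x) = x := fun x hx => e0.left_inv hx
  have hfU : IsOpen (f '' U) := e0.open_target
  have hgs : ∀ y ∈ f '' U, ContDiffAt ℝ ∞ g y := by
    intro y hy
    obtain ⟨e, he⟩ := exists_equiv (fderiv ℝ f (g y)) (hfω _ (hgU y hy))
    refine e0.contDiffAt_symm (f₀' := e) hy ?_ ?_
    · rw [he]
      exact hfderiv _ (hgU y hy)
    · exact hfs.contDiffAt (hU.mem_nhds (hgU y hy))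
  -- the closed ball
  have hcomp : IsCompact (closedBall n r') := by
    refine Metric.isCompact_of_isClosed_isBounded ?_ ?_
    · exact isClosed_le (by fun_prop) continuous_const
    · refine (Metric.isBounded_iff_subset_closedBall 0).2 ⟨Real.sqrt (r' / Real.pi), ?_⟩
      intro x hx
      rw [mem_closedBall_zero_iff, pi_norm_le_iff_of_nonneg (Real.sqrt_nonneg _)]
      intro j
      refine Real.le_sqrt_of_sq_le ?_
      rw [le_div_iff₀ Real.pi_pos]
      have h1 : ‖x j‖ ^ 2 ≤ ∑ i, ‖x i‖ ^ 2 :=
        Finset.single_le_sum (f := fun i => ‖x i‖ ^ 2) (fun i _ => by positivity)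
          (Finset.mem_univ j)
      have h2 : Real.pi * ∑ i, ‖x i‖ ^ 2 ≤ r' := hx
      nlinarith [Real.pi_pos]
  have hsub : closedBall n r' ⊆ U := fun x hx => hBU (le_trans (show _ ≤ r' from hx) hr'r.le)
  have hosub : openBall n r ⊆ U := fun x hx => hBU (le_of_lt (show _ < r from hx))
  have hclosed : IsClosed (f '' closedBall n r') :=
    (hcomp.image_of_continuousOn (hfs.continuousOn.mono hsub)).isClosed
  classical
  set H : (Fin n → ℂ) → ℝ := fun y => if y ∈ f '' U then h (Real.pi * nsq (g y)) else 0 with hH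
  set Y : (Fin n → ℂ) → (Fin n → ℂ) := fun y => if y ∈ f '' U then
    fderiv ℝ f (g y) (fun j => ((-(2 * Real.pi * h' (Real.pi * nsq (g y))) : ℝ) * Complex.I : ℂ)
      * g y j) else 0 with hY
  have hHU : ∀ x ∈ U, H (f x) = h (Real.pi * nsq x) := by
    intro x hx
    simp only [hH]
    rw [if_pos (mem_image_of_mem f hx), hgf x hx]
  have hYU : ∀ x ∈ U, Y (f x) = fderiv ℝ f x (fun j =>
      ((-(2 * Real.pi * h' (Real.pi * nsq x)) : ℝ) * Complex.I : ℂ) * x j) := by
    intro x hx
    simp only [hY]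
    rw [if_pos (mem_image_of_mem f hx), hgf x hx]
  have hoff : ∀ y, y ∉ f '' closedBall n r' → H y = 0 ∧ Y y = 0 := by
    intro y hy
    by_cases hyU : y ∈ f '' U
    · obtain ⟨x, hx, rfl⟩ := hyU
      have hxr : r' ≤ Real.pi * nsq x := by
        by_contra hlt
        exact hy (mem_image_of_mem f (le_of_lt (not_le.1 hlt)))
      rw [hHU x hx, hYU x hx, (hC _ hxr).1, (hC _ hxr).2]
      refine ⟨rfl, ?_⟩
      simp
      exact map_zero _
    · simp only [hH, hY, if_neg hyU, and_self]
  have hHc : ContDiff ℝ ∞ H := by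
    rw [contDiff_iff_contDiffAt]
    intro y
    by_cases hyU : y ∈ f '' U
    · have h1 : ContDiffAt ℝ ∞ (fun y => h (Real.pi * nsq (g y))) y :=
        hhc.contDiffAt.comp y (contDiffAt_const.mul (nsq_contDiff.contDiffAt.comp y (hgs y hyU)))
      refine h1.congr_of_eventuallyEq ?_
      filter_upwards [hfU.mem_nhds hyU] with z hz
      simp only [hH]
      rw [if_pos hz]
    · have hy' : y ∉ f '' closedBall n r' := fun hh => hyU (image_mono hsub hh)
      refine (contDiffAt_const (c := (0 : ℝ))).congr_of_eventuallyEq ?_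
      filter_upwards [hclosed.isOpen_compl.mem_nhds hy'] with z hz
      exact (hoff z hz).1
  have hfield : IsField H Y := by
    intro y v
    by_cases hyU : y ∈ f '' U
    · obtain ⟨x, hx, rfl⟩ := hyU
      obtain ⟨D, hD, hDv⟩ := nsq_hasFDerivAt x
      obtain ⟨e, he⟩ := exists_equiv (fderiv ℝ f x) (hfω x hx)
      have h1 : HasFDerivAt (fun x => H (f x)) ((fderiv ℝ H (f x)).comp (fderiv ℝ f x)) x :=
        ((hHc.differentiable (by simp)) (f x)).hasFDerivAt.comp x (hfderiv x hx)
      have h2 : HasFDerivAt (fun x => h (Real.pi * nsq x))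
          ((h' (Real.pi * nsq x)) • (Real.pi • D)) x :=
        (hhd _).comp_hasFDerivAt x (hD.const_mul Real.pi)
      have h3 : HasFDerivAt (fun x => H (f x)) ((h' (Real.pi * nsq x)) • (Real.pi • D)) x := by
        refine h2.congr_of_eventuallyEq ?_
        filter_upwards [hU.mem_nhds hx] with z hz
        exact hHU z hz
      have h4 := h1.unique h3
      obtain ⟨w, rfl⟩ : ∃ w, fderiv ℝ f x w = v := by
        refine ⟨e.symm v, ?_⟩
        rw [← he]
        exact e.apply_symm_apply v
      have h5 : fderiv ℝ H (f x) (fderiv ℝ f x w) =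
          ((h' (Real.pi * nsq x)) • (Real.pi • D)) w := by
        rw [← h4]; rfl
      rw [h5, hYU x hx, hfω x hx]
      simp only [smul_apply, smul_eq_mul]
      rw [hDv]
      unfold omega
      rw [Finset.mul_sum, Finset.mul_sum]
      refine Finset.sum_congr rfl fun j _ => ?_
      simp only [Complex.mul_re, Complex.mul_im, Complex.ofReal_re, Complex.ofReal_im,
        Complex.I_re, Complex.I_im]
      ring
    · have hy' : y ∉ f '' closedBall n r' := fun hh => hyU (image_mono hsub hh)
      have h0 : fderiv ℝ H y = 0 := by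
        have h1 : HasFDerivAt H (0 : (Fin n → ℂ) →L[ℝ] ℝ) y := by
          refine (hasFDerivAt_const (0 : ℝ) y).congr_of_eventuallyEq ?_
          filter_upwards [hclosed.isOpen_compl.mem_nhds hy'] with z hz
          exact (hoff z hz).1
        exact h1.fderiv
      rw [h0, (hoff y hy').2]
      simp [omega]
  have hnn : ∀ x : Fin n → ℂ, 0 ≤ Real.pi * nsq x := fun x =>
    mul_nonneg Real.pi_pos.le (Finset.sum_nonneg fun j _ => by positivity)
  have h00 : 0 < h 0 := by linarith
  refine ⟨h, h', r', H, Y, hr'0, hr'r, h0c, h0r, hA, hB, hC, hHc, hfield, ?_, ?_, hoff, ?_⟩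
  · intro y
    by_cases hyU : y ∈ f '' U
    · obtain ⟨x, hx, rfl⟩ := hyU
      rw [hHU x hx]
      rcases lt_or_ge (Real.pi * nsq x) r' with hl | hl
      · exact (hA _ (hnn x) hl).2.2.le
      · exact (hC _ hl).2.ge
    · simp only [hH, if_neg hyU, le_refl]
  · intro y
    by_cases hyU : y ∈ f '' U
    · obtain ⟨x, hx, rfl⟩ := hyU
      rw [hHU x hx]
      rcases lt_or_ge (Real.pi * nsq x) r' with hl | hl
      · rcases eq_or_lt_of_le (hnn x) with h1 | h1
        · rw [← h1]
        · exact (hB _ h1 hl).le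
      · rw [(hC _ hl).2]; exact h00.le
    · simp only [hH, if_neg hyU]; exact h00.le
  · intro x hx
    exact ⟨hHU x (hosub hx), hYU x (hosub hx)⟩

end

end Vale.Agent.P209.H949
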